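import Vale.Agent.P181.TL.Defs
import Vale.Agent.P181.TL.H908.KeyB0

/-! # P181, TL: (T5a) -/

namespace Vale.Agent.P181.TL.H908

theorem keyB : Vale.Agent.P181.TL.KeyB := keyB0

end Vale.Agent.P181.TL.H908
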