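import Mathlib.Data.Fintype.BigOperators
import Mathlib.Algebra.BigOperators.Fin
import Mathlib.Algebra.Order.BigOperators.Group.Finset
import Mathlib.Data.Fintype.Prod
import Mathlib.Tactic.Linarith
import Mathlib.Tactic.Ring

namespace Vale.Agent.P181.TL.H908

open Finset

theorem sum_lt_fin (H k : ℕ) (hk : k ≤ H) :
    ∑ h : Fin H, (if (h : ℕ) < k then 1 else 0) = k := by
  rw [Fin.sum_univ_eq_sum_range (fun h => if h < k then 1 else 0) H, ← Finset.sum_filter,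
    Finset.sum_const, smul_eq_mul, mul_one]
  have : (Finset.range H).filter (fun h => h < k) = Finset.range k := by
    ext x
    simp only [Finset.mem_filter, Finset.mem_range]
    omega
  rw [this, Finset.card_range]

open scoped Classical in
theorem sizeB0 : ∀ (a b q m w M : ℕ), 0 < a → 1 ≤ q → 1 ≤ m → 1 ≤ M →
  2 * (M + q * (a / m) + q + 1) ≤ a → q * a * (M + q * (a / m) + q) + 4 * M * q * a ≤ w →
  3 * q * a + 3 * (w / a) + 3 ≤ b →
  ∃ (H : ℕ) (s : Fin a × Fin q → ℕ) (p : Fin H → ℕ) (l : Fin a × Fin q → Fin H),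
    (∀ j, M < s j) ∧ (∀ j h, s j < p h) ∧ (∀ h, p h ≤ a) ∧ 3 * (a * q + H) ≤ b ∧
    ∑ j, s j + ∑ h, p h = w ∧
    (∀ j j' : Fin a × Fin q, s j = s j' → (j.1 : ℕ) / m = (j'.1 : ℕ) / m ∧ j.2 = j'.2) ∧
    ∀ h, (Finset.univ.filter fun j => l j = h).card * M ≤ p h := by
  intro a b q m w M ha hq hm hM hMa hw hb
  obtain ⟨s, hs⟩ : ∃ s : Fin a × Fin q → ℕ, ∀ j, s j = M + 1 + (q * ((j.1 : ℕ) / m) + (j.2 : ℕ)) :=
    ⟨fun j => M + 1 + (q * ((j.1 : ℕ) / m) + (j.2 : ℕ)), fun _ => rfl⟩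
  obtain ⟨Z, hZ⟩ : ∃ Z, Z = M + q * (a / m) + q := ⟨_, rfl⟩
  rw [← hZ] at hMa hw
  have hs1 : ∀ j, s j ≤ Z := fun j => by
    have h1 : (j.1 : ℕ) / m ≤ a / m := Nat.div_le_div_right j.1.2.le
    have h2 : q * ((j.1 : ℕ) / m) ≤ q * (a / m) := Nat.mul_le_mul_left _ h1
    have h3 := j.2.2
    rw [hs, hZ]
    omega
  have hsum : ∑ j, s j ≤ q * a * Z := by
    calc ∑ j, s j ≤ ∑ _j : Fin a × Fin q, Z := sum_le_sum fun j _ => hs1 j
      _ = q * a * Z := by
        rw [sum_const, card_univ, Fintype.card_prod, Fintype.card_fin, Fintype.card_fin,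
          smul_eq_mul, mul_comm q a]
  obtain ⟨P, hP⟩ : ∃ P, ∑ j, s j + P = w := ⟨w - ∑ j, s j, by omega⟩
  have hP4 : 4 * M * q * a ≤ P := by omega
  obtain ⟨u, hu⟩ : ∃ u, u = P / a := ⟨_, rfl⟩
  have hu1 : 4 * M * q ≤ u := by
    rw [hu]
    exact (Nat.le_div_iff_mul_le ha).2 hP4
  have hu2 : a * u ≤ P := by
    rw [hu]
    exact Nat.mul_div_le P a
  have hu3 : P < a * (u + 1) := by
    rw [hu]
    exact Nat.lt_mul_div_succ P ha
  have hMq : 1 ≤ M * q := Nat.mul_pos hM hq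
  have hu4 : 4 ≤ u := by nlinarith
  have hu5 : u ≤ w / a := by
    rw [hu]
    exact Nat.div_le_div_right (by omega)
  -- everything of size `≤ a / 2` fits
  have hfit : ∀ x, 2 * x ≤ a → x ≤ P / (u + 1) := fun x hx => by
    refine (Nat.le_div_iff_mul_le (Nat.succ_pos u)).2 ?_
    rw [Nat.succ_eq_add_one]
    have h1 : 2 * (x * (u + 1)) ≤ 2 * (a * u) := by
      calc 2 * (x * (u + 1)) = (2 * x) * (u + 1) := by ring
        _ ≤ a * (u + 1) := Nat.mul_le_mul_right _ hx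
        _ ≤ 2 * (a * u) := by nlinarith
    omega
  have hPa : P / (u + 1) < a := by
    rw [Nat.div_lt_iff_lt_mul (Nat.succ_pos u)]
    exact hu3
  obtain ⟨p, hp⟩ : ∃ p : Fin (u + 1) → ℕ, ∀ h, p h = P / (u + 1) +
      if (h : ℕ) < P % (u + 1) then 1 else 0 :=
    ⟨fun h => P / (u + 1) + if (h : ℕ) < P % (u + 1) then 1 else 0, fun _ => rfl⟩
  have hp1 : ∀ h, P / (u + 1) ≤ p h := fun h => by
    rw [hp]
    exact Nat.le_add_right _ _
  have hp2 : ∀ h, p h ≤ a := fun h => by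
    rw [hp]
    split_ifs <;> omega
  have hp3 : ∑ h, p h = P := by
    rw [sum_congr rfl fun h _ => hp h, sum_add_distrib, sum_const, card_univ, Fintype.card_fin,
      smul_eq_mul, sum_lt_fin (u + 1) (P % (u + 1)) (Nat.mod_lt _ (Nat.succ_pos u)).le]
    exact Nat.div_add_mod P (u + 1)
  -- the heads
  obtain ⟨g, hg⟩ : ∃ g, g = a / (2 * M) := ⟨_, rfl⟩
  have h2M : 0 < 2 * M := by omega
  have hg1 : 1 ≤ g := by
    rw [hg]
    refine (Nat.le_div_iff_mul_le h2M).2 ?_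
    omega
  have hg2 : 2 * M * g ≤ a := by
    rw [hg]
    exact Nat.mul_div_le a (2 * M)
  have hg3 : a < 2 * M * (g + 1) := by
    rw [hg]
    exact Nat.lt_mul_div_succ a h2M
  have hg4 : a < 4 * M * g := by nlinarith
  have hidx : ∀ j : Fin a × Fin q, q * (j.1 : ℕ) + (j.2 : ℕ) < q * a := fun j => by
    have h1 := j.1.2
    have h2 := j.2.2
    calc q * (j.1 : ℕ) + (j.2 : ℕ) < q * (j.1 : ℕ) + q := by omega
      _ = q * ((j.1 : ℕ) + 1) := by ring
      _ ≤ q * a := Nat.mul_le_mul_left _ h1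
  have hl : ∀ j : Fin a × Fin q, (q * (j.1 : ℕ) + (j.2 : ℕ)) / g < u + 1 := fun j => by
    rw [Nat.div_lt_iff_lt_mul hg1]
    have h1 := hidx j
    have h2 : q * a ≤ u * g := by
      calc q * a ≤ q * (4 * M * g) := Nat.mul_le_mul_left _ hg4.le
        _ = 4 * M * q * g := by ring
        _ ≤ u * g := Nat.mul_le_mul_right _ hu1
    calc q * (j.1 : ℕ) + (j.2 : ℕ) < q * a := h1
      _ ≤ u * g := h2
      _ ≤ (u + 1) * g := Nat.mul_le_mul_right _ (Nat.le_succ u)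
  refine ⟨u + 1, s, p, fun j => ⟨(q * (j.1 : ℕ) + (j.2 : ℕ)) / g, hl j⟩, ?_, ?_, hp2, ?_, ?_, ?_, ?_⟩
  · intro j
    rw [hs]
    omega
  · intro j h
    have h1 := hs1 j
    have h2 := hfit (Z + 1) (by omega)
    have h3 := hp1 h
    omega
  · have h1 : a * q = q * a := mul_comm a q
    have h2 : 3 * q * a = 3 * (q * a) := by ring
    omega
  · rw [hp3]
    exact hP
  · intro j j' h
    rw [hs, hs] at h
    have h1 : (q * ((j.1 : ℕ) / m) + (j.2 : ℕ)) = (q * ((j'.1 : ℕ) / m) + (j'.2 : ℕ)) := by omega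
    have h2 : (j.1 : ℕ) / m = (j'.1 : ℕ) / m := by
      have h3 : (q * ((j.1 : ℕ) / m) + (j.2 : ℕ)) / q = (q * ((j'.1 : ℕ) / m) + (j'.2 : ℕ)) / q := by
        rw [h1]
      rwa [Nat.mul_add_div hq, Nat.mul_add_div hq, Nat.div_eq_of_lt j.2.2,
        Nat.div_eq_of_lt j'.2.2, add_zero, add_zero] at h3
    refine ⟨h2, Fin.ext ?_⟩
    rw [h2] at h1
    omega
  · intro h
    have h1 : (Finset.univ.filter fun j : Fin a × Fin q =>
        (⟨(q * (j.1 : ℕ) + (j.2 : ℕ)) / g, hl j⟩ : Fin (u + 1)) = h).card ≤ g := by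
      have h2 : (Finset.univ.filter fun j : Fin a × Fin q =>
          (⟨(q * (j.1 : ℕ) + (j.2 : ℕ)) / g, hl j⟩ : Fin (u + 1)) = h).card ≤
          (Finset.Ico (g * (h : ℕ)) (g * (h : ℕ) + g)).card := by
        refine Finset.card_le_card_of_injOn (fun j => q * (j.1 : ℕ) + (j.2 : ℕ)) ?_ ?_
        · intro j hj
          have h3 := (Finset.mem_filter.1 (Finset.mem_coe.1 hj)).2
          have h4 : (q * (j.1 : ℕ) + (j.2 : ℕ)) / g = (h : ℕ) := congrArg Fin.val h3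
          have h5 := Nat.div_add_mod (q * (j.1 : ℕ) + (j.2 : ℕ)) g
          have h6 := Nat.mod_lt (q * (j.1 : ℕ) + (j.2 : ℕ)) hg1
          rw [h4] at h5
          rw [Finset.coe_Ico, Set.mem_Ico]
          dsimp only
          omega
        · intro j _ j' _ h3
          dsimp only at h3
          have h4 : (j.1 : ℕ) = j'.1 := by
            have h5 : (q * (j.1 : ℕ) + (j.2 : ℕ)) / q = (q * (j'.1 : ℕ) + (j'.2 : ℕ)) / q := by
              rw [h3]
            rwa [Nat.mul_add_div hq, Nat.mul_add_div hq, Nat.div_eq_of_lt j.2.2,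
              Nat.div_eq_of_lt j'.2.2, add_zero, add_zero] at h5
          rw [h4] at h3
          exact Prod.ext (Fin.ext h4) (Fin.ext (by omega))
      rwa [Nat.card_Ico, Nat.add_sub_cancel_left] at h2
    have h3 : g * M ≤ P / (u + 1) := hfit (g * M) (by nlinarith)
    calc _ ≤ g * M := Nat.mul_le_mul_right _ h1
      _ ≤ P / (u + 1) := h3
      _ ≤ p h := hp1 h

end Vale.Agent.P181.TL.H908
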