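import Vale.Agent.P181.TL.Defs
import Vale.Agent.P181.TL.H908.SizeB0

/-! # P181, TL: (T5b) -/

namespace Vale.Agent.P181.TL.H908

theorem sizeB : Vale.Agent.P181.TL.SizeB := sizeB0

end Vale.Agent.P181.TL.H908
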